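import Vale.Agent.P073.TMD773.Fields
import Vale.Agent.P073.PA691.MkHandle
import Vale.Agent.P073.Net.NearDefs
import Vale.Agent.P073.Net.NC

/-!
# P073: the cells of the model and their cores are small compared with the size function

`near_core`: if `z` is in the cell `R j` and `y` in `R j` or in the core of `j`, then
`‖y - z‖ ≤ 24 ρ z`.
-/

open Set Metric Topology Filter

namespace P073.NT293

open P073 PR720 PA691 TMD773
open Vale.Agent.P073.St (V)
open P073.Net (SizeFn IsTile dyc)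

variable {Λ : Set V} {v : V} {K : BoxCx Λ v} {s : K.Sizes} {c : ℝ} {ρ : V → ℝ}

/-- the tiles are comparable with the size function -/
structure SideFn (K : BoxCx Λ v) (ρ : V → ℝ) (sd : K.T → ℝ) : Prop where
  le : ∀ p, ∀ x ∈ K.cube p, sd p ≤ ρ x
  ge : ∀ p, ∀ x ∈ K.cube p, ρ x ≤ 4 * sd p
  diam : ∀ p, ∀ x ∈ K.cube p, ∀ y ∈ K.cube p, ‖x - y‖ ≤ sd p
  pos : ∀ p, 0 < sd p

theorem exists_sideFn (hρ : SizeFn Λ ρ)
    (hK : ∀ p, ∃ m z, IsTile ρ v m z ∧ Icc (K.lo p) (K.hi p) = dyc v m z) :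
    ∃ sd, SideFn K ρ sd := by
  choose m z h1 h2 using hK
  obtain ⟨_, _, _, h4, _⟩ := Net.specNC Λ ρ hρ v
  refine ⟨fun p => 1 / 2 ^ m p, fun p x hx => ?_, fun p x hx => ?_, fun p x hx y hy => ?_,
    fun p => by positivity⟩
  · have hx' : x ∈ dyc v (m p) (z p) := by rw [← h2]; exact hx
    exact (h4 _ _ (h1 p) x hx').1
  · have hx' : x ∈ dyc v (m p) (z p) := by rw [← h2]; exact hx
    refine (h4 _ _ (h1 p) x hx').2.trans (le_of_eq ?_)
    ring
  · have hx' : x ∈ dyc v (m p) (z p) := by rw [← h2]; exact hx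
    have hy' : y ∈ dyc v (m p) (z p) := by rw [← h2]; exact hy
    rw [pi_norm_le_iff_of_nonneg (by positivity)]
    intro k
    have a := hx' k
    have b := hy' k
    have e : (z p k + 1 : ℝ) / 2 ^ m p = z p k / 2 ^ m p + 1 / 2 ^ m p := by ring
    rw [e] at a b
    rw [Pi.sub_apply, Real.norm_eq_abs, abs_le]
    constructor <;> linarith

section

variable {sd : K.T → ℝ} (hS : SideFn K ρ sd)
include hS

/-- tiles which meet are comparable -/
theorem comp {p q : K.T} {x : V} (hp : x ∈ K.cube p) (hq : x ∈ K.cube q) :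
    sd q ≤ 4 * sd p := (hS.le q x hq).trans (hS.ge p x hp)

/-- an edge in a tile -/
theorem edge_le {e : K.G} {p : K.T} (he : K.edge e ⊆ K.cube p) :
    K.w (K.b e) (K.dir e) - K.w (K.a e) (K.dir e) ≤ sd p := by
  have h1 := hS.diam p _ (he (mem_edge_b e)) _ (he (mem_edge_a e))
  have h2 := norm_le_pi_norm (K.w (K.b e) - K.w (K.a e)) (K.dir e)
  rw [Pi.sub_apply, Real.norm_eq_abs] at h2
  exact (le_abs_self _).trans (h2.trans h1)

/-- every edge is in a tile -/
theorem exists_tile_edge (e : K.G) : ∃ p, K.edge e ⊆ K.cube p ∧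
    2 * s.r (K.a e) + 2 * s.r (K.b e) ≤ sd p ∧
    K.w (K.b e) (K.dir e) - K.w (K.a e) (K.dir e) ≤ sd p := by
  obtain ⟨p, hp⟩ := K.edge_in e
  have h1 := edge_le hS hp
  have h2 := long s e
  exact ⟨p, hp, by linarith, h1⟩

/-- every vertex is in a tile -/
theorem exists_tile_vertex (i : K.W) : ∃ p, K.w i ∈ K.cube p ∧ 2 * s.r i ≤ sd p := by
  obtain ⟨e, he⟩ := K.w_edge i
  obtain ⟨p, hp, h1, -⟩ := exists_tile_edge (s := s) hS e
  have ha := r_pos s (K.a e)
  have hb := r_pos s (K.b e)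
  rcases he with rfl | rfl
  · exact ⟨p, hp (mem_edge_a e), by linarith⟩
  · exact ⟨p, hp (mem_edge_b e), by linarith⟩

/-- the flat squares -/
theorem disc_tile (hc : c ∈ Ioo (1/2:ℝ) 1) (d : BoxCx.Sizes.D K) :
    ∃ p, s.par c d 0 ∈ K.cube p ∧ ∀ y ∈ Q0, ‖s.par c d y - s.par c d 0‖ ≤ sd p := by
  rcases d with ⟨e, β⟩ | t
  · obtain ⟨p, hp, h1, h2⟩ := exists_tile_edge (s := s) hS e
    have ha := r_pos s (K.a e)
    have hb := r_pos s (K.b e)
    have hq := TMD773.q_pos s e
    have hqa := (s.q_le e).1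
    have hlev := lev_bounds s e β
    refine ⟨p, hp ?_, fun y hy => ?_⟩
    · refine ⟨fun k => ?_, fun k => ?_⟩
      · by_cases hk : k = K.dir e
        · subst hk
          rw [par_inl_dir]
          linarith
        · obtain ⟨j, rfl⟩ := Fin.exists_succAbove_eq hk
          rw [par_inl_succ]
          simp
      · by_cases hk : k = K.dir e
        · subst hk
          rw [par_inl_dir]
          linarith
        · obtain ⟨j, rfl⟩ := Fin.exists_succAbove_eq hk
          rw [par_inl_succ, ← K.ab_off e _ hk]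
          simp
    · rw [pi_norm_le_iff_of_nonneg (hS.pos p).le]
      intro k
      rw [Pi.sub_apply, Real.norm_eq_abs]
      by_cases hk : k = K.dir e
      · subst hk
        rw [par_inl_dir, par_inl_dir, sub_self, abs_zero]
        exact (hS.pos p).le
      · obtain ⟨j, rfl⟩ := Fin.exists_succAbove_eq hk
        rw [par_inl_succ, par_inl_succ]
        have h3 := mem_Q0.1 hy j
        have e1 : K.w (K.a e) ((K.dir e).succAbove j) + 2 * (c * s.q e) * y j -
            (K.w (K.a e) ((K.dir e).succAbove j) + 2 * (c * s.q e) * (0 : P2) j) =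
            (2 * (c * s.q e)) * y j := by
          simp
        rw [e1, abs_mul, abs_of_nonneg (by have := hc.1; positivity)]
        have h4 : 2 * (c * s.q e) * |y j| ≤ 2 * (1 * s.q e) * 1 := by
          have := hc.1
          have := hc.2
          gcongr
        linarith
  · refine ⟨K.sm t, ?_, ?_⟩
    · refine (sq_sub_cube t ?_).1
      refine ⟨fun k => ?_, fun k => ?_⟩
      · by_cases hk : k = K.nrm t
        · subst hk; rw [par_inr_nrm]
        · have h1 := K.s_lt t k hk
          obtain ⟨j, rfl⟩ := Fin.exists_succAbove_eq hk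
          rw [par_inr_succ]
          simp only [Pi.zero_apply, mul_zero, add_zero]
          linarith
      · by_cases hk : k = K.nrm t
        · subst hk; rw [par_inr_nrm]; exact (K.s_flat t).le
        · have h1 := K.s_lt t k hk
          obtain ⟨j, rfl⟩ := Fin.exists_succAbove_eq hk
          rw [par_inr_succ]
          simp only [Pi.zero_apply, mul_zero, add_zero]
          linarith
    · intro y hy
      have hlo : K.slo t ∈ K.cube (K.sm t) := (sq_sub_cube t ⟨le_refl _, fun k => by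
        by_cases hk : k = K.nrm t
        · subst hk; exact (K.s_flat t).le
        · exact (K.s_lt t k hk).le⟩).1
      have hhi : K.shi t ∈ K.cube (K.sm t) := (sq_sub_cube t ⟨fun k => by
        by_cases hk : k = K.nrm t
        · subst hk; exact (K.s_flat t).le
        · exact (K.s_lt t k hk).le, le_refl _⟩).1
      have hd := hS.diam _ _ hhi _ hlo
      rw [pi_norm_le_iff_of_nonneg (hS.pos _).le]
      intro k
      rw [Pi.sub_apply, Real.norm_eq_abs]
      by_cases hk : k = K.nrm t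
      · subst hk
        rw [par_inr_nrm, par_inr_nrm, sub_self, abs_zero]
        exact (hS.pos _).le
      · obtain ⟨j, rfl⟩ := Fin.exists_succAbove_eq hk
        rw [par_inr_succ, par_inr_succ]
        have h3 := mem_Q0.1 hy j
        have h4 := half_pos s t j
        have h5 := norm_le_pi_norm (K.shi t - K.slo t) ((K.nrm t).succAbove j)
        rw [Pi.sub_apply, Real.norm_eq_abs] at h5
        have h6 := (le_abs_self _).trans (h5.trans hd)
        have h7 := s.μ_pos t
        have e1 : (K.slo t ((K.nrm t).succAbove j) + K.shi t ((K.nrm t).succAbove j)) / 2 +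
            ((K.shi t ((K.nrm t).succAbove j) - K.slo t ((K.nrm t).succAbove j)) / 2 - s.μ t) *
              y j - ((K.slo t ((K.nrm t).succAbove j) + K.shi t ((K.nrm t).succAbove j)) / 2 +
            ((K.shi t ((K.nrm t).succAbove j) - K.slo t ((K.nrm t).succAbove j)) / 2 - s.μ t) *
              (0 : P2) j) =
            ((K.shi t ((K.nrm t).succAbove j) - K.slo t ((K.nrm t).succAbove j)) / 2 - s.μ t) *
              y j := by
          simp
        rw [e1, abs_mul, abs_of_pos h4]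
        nlinarith [abs_nonneg (y j)]

omit hS in
/-- the cell of a vertex is in the double cube -/
theorem RV_sub_ball (hc : c ∈ Ioo (1/2:ℝ) 1) (i : K.W) :
    s.RV c i ⊆ closedBall (K.w i) (2 * s.r i) := by
  have hr := r_pos s i
  have hc1 := hc.1
  have hc2 := hc.2
  intro x hx
  rw [mem_closedBall_iff (by linarith)]
  rcases hx with (hx | hx) | hx
  · have h1 : x ∈ closedBall (K.w i) (c * s.r i) := hx
    rw [mem_closedBall_iff (by positivity)] at h1
    intro k
    have := h1 k
    nlinarith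
  · obtain ⟨e, rfl, hxe, hxd⟩ := mem_iUnion₂.1 hx
    have hqe := TMD773.q_pos s e
    have hqa := (s.q_le e).1
    have h2 : c * s.q e ≤ s.q e := by nlinarith
    intro k
    have h1 := hxe k
    rw [abs_le]
    by_cases hk : k = K.dir e
    · subst hk
      unfold BoxCx.Sizes.ca at hxd
      constructor <;> linarith
    · have h3 := K.ab_off e k hk
      constructor <;> linarith
  · obtain ⟨e, rfl, hxe, hxd⟩ := mem_iUnion₂.1 hx
    have hqe := TMD773.q_pos s e
    have hqa := (s.q_le e).2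
    have h2 : c * s.q e ≤ s.q e := by nlinarith
    intro k
    have h1 := hxe k
    rw [abs_le]
    by_cases hk : k = K.dir e
    · subst hk
      unfold BoxCx.Sizes.cb at hxd
      constructor <;> linarith
    · have h3 := K.ab_off e k hk
      constructor <;> linarith

omit hS in
/-- the tile of a point of an edge cell contains the edge -/
theorem RG_tile (hc : c ∈ Ioo (1/2:ℝ) 1) {e : K.G} {x : V} (hx : x ∈ s.RG c e) {p : K.T}
    (hp : x ∈ K.cube p) : K.edge e ⊆ K.cube p := by
  have hq := TMD773.q_pos s e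
  have hc2 := hc.2
  obtain ⟨h1, h2, h3⟩ := hx
  have h1' : x ∈ K.nb e (2 * s.q e) := nb_mono (by nlinarith) h1
  have ha := r_pos s (K.a e)
  have hb := r_pos s (K.b e)
  unfold BoxCx.Sizes.ca at h2
  unfold BoxCx.Sizes.cb at h3
  refine (s.tube_tile e p x h1' hp ?_ ?_).1
  · intro h
    rw [mem_ball_iff' (by linarith)] at h
    have := (abs_lt.1 (h (K.dir e))).2
    linarith
  · intro h
    rw [mem_ball_iff' (by linarith)] at h
    have := (abs_lt.1 (h (K.dir e))).1
    linarith

/-- two tiles which meet the same cell -/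
theorem cell_comp (hc : c ∈ Ioo (1/2:ℝ) 1) {j : K.T ⊕ K.W ⊕ K.G} {x y : V}
    (hx : x ∈ s.R c j) (hy : y ∈ s.R c j) {p q : K.T} (hp : x ∈ K.cube p) (hq : y ∈ K.cube q) :
    sd q ≤ 16 * sd p := by
  have hpp := hS.pos p
  rcases j with r | i | e
  · have hx' : x ∈ K.cube r := hx.1
    have hy' : y ∈ K.cube r := hy.1
    have h1 := comp hS hp hx'
    have h2 := comp hS hy' hq
    linarith
  · have hx' := RV_sub_ball hc i hx
    have hy' := RV_sub_ball hc i hy
    have h1 := comp hS (s.U_tile i p x hx' hp).1 (s.U_tile i q y hy' hq).1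
    linarith
  · have h1 := comp hS (RG_tile hc hx hp (mem_edge_a e)) (RG_tile hc hy hq (mem_edge_a e))
    linarith

/-- the cells are small -/
theorem cell_diam (hc : c ∈ Ioo (1/2:ℝ) 1) {j : K.T ⊕ K.W ⊕ K.G} {x y : V}
    (hx : x ∈ s.R c j) (hy : y ∈ s.R c j) {p : K.T} (hp : x ∈ K.cube p) :
    ‖y - x‖ ≤ 8 * sd p := by
  have hpp := hS.pos p
  rcases j with r | i | e
  · have hx' : x ∈ K.cube r := hx.1
    have hy' : y ∈ K.cube r := hy.1
    have h1 := comp hS hp hx'
    have h2 := hS.diam r y hy' x hx'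
    linarith
  · have hx' := RV_sub_ball hc i hx
    have hy' := RV_sub_ball hc i hy
    obtain ⟨q, hq, hr⟩ := exists_tile_vertex (s := s) hS i
    have h1 := comp hS (s.U_tile i p x hx' hp).1 hq
    have h2 : ‖y - x‖ ≤ 2 * s.r i + 2 * s.r i := by
      have := dist_triangle_right y x (K.w i)
      rw [mem_closedBall] at hx' hy'
      rw [← dist_eq_norm]
      linarith
    linarith
  · obtain ⟨q, hq, hr, hl⟩ := exists_tile_edge (s := s) hS e
    have h1 := comp hS (RG_tile hc hx hp (mem_edge_a e)) (hq (mem_edge_a e))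
    have hqp := TMD773.q_pos s e
    have hqa := (s.q_le e).1
    have ha := r_pos s (K.a e)
    have hb := r_pos s (K.b e)
    have hc2 := hc.2
    have h3 : c * s.q e ≤ s.q e := by nlinarith
    rw [pi_norm_le_iff_of_nonneg (by linarith)]
    intro k
    have a1 := hx.1 k
    have a2 := hy.1 k
    rw [Pi.sub_apply, Real.norm_eq_abs, abs_le]
    by_cases hk : k = K.dir e
    · subst hk
      constructor <;> linarith
    · have h4 := K.ab_off e k hk
      constructor <;> linarith

/-- **the cells and their cores are small** -/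
theorem near_core (hc : c ∈ Ioo (1/2:ℝ) 1) (hB : s.BasicFacts c) (hR : s.BallFacts c)
    (hD : s.DiscFacts c) (hP : s.PieceFacts c) {j : K.T ⊕ K.W ⊕ K.G} {z y : V}
    (hz : z ∈ s.R c j) (hy : y ∈ s.R c j ∨ y ∈ (s.mkHandle c hB hR hD hP).core j) :
    ‖y - z‖ ≤ 24 * ρ z := by
  have hcov : z ∈ Λ := by
    rw [← hB.cover]
    exact mem_iUnion.2 ⟨j, hz⟩
  obtain ⟨p, hp⟩ := K.cover z hcov
  have hp' : z ∈ K.cube p := hp
  have hpp := hS.pos p
  have hρ := hS.le p z hp'
  have hcl : IsClosed (s.R c j) := (hR j).isClosed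
  have main : y ∈ s.R c j → ‖y - z‖ ≤ 24 * ρ z := fun hy => by
    have := cell_diam hS hc hz hy hp'
    linarith
  rcases hy with hy | hy | hy
  · exact main hy
  · exact main (hcl.frontier_subset hy)
  · obtain ⟨d, hd, hyd⟩ := mem_iUnion₂.1 hy
    rw [s.mkHandle_ι c hB hR hD hP d] at hyd hd
    obtain ⟨u, hu, rfl⟩ := hyd
    have h0 : s.par c d 0 ∈ s.R c j := hcl.frontier_subset (hd ⟨0, (hD.zero_mem d).1, rfl⟩)
    obtain ⟨q, hq, hqd⟩ := disc_tile (s := s) hS hc d
    have h1 := cell_comp hS hc hz h0 hp' hq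
    have h2 := cell_diam hS hc hz h0 hp'
    have h3 := hqd u hu
    calc ‖s.par c d u - z‖ = ‖(s.par c d u - s.par c d 0) + (s.par c d 0 - z)‖ := by
          congr 1; abel
      _ ≤ ‖s.par c d u - s.par c d 0‖ + ‖s.par c d 0 - z‖ := norm_add_le _ _
      _ ≤ 24 * ρ z := by linarith

/-- **closeness of the map of (MAIN)** -/
theorem near_of_main (hρ : SizeFn Λ ρ) (hc : c ∈ Ioo (1/2:ℝ) 1) (hB : s.BasicFacts c)
    (hR : s.BallFacts c) (hD : s.DiscFacts c) (hP : s.PieceFacts c) {Ω : Set V} {f h : V → V}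
    {η : V → ℝ} (hη : ∀ y ∈ Λ, η y ≤ ρ y) (hm : MapsTo h Ω Λ)
    (hcell : ∀ x ∈ Ω, ∀ j, h x ∈ s.R c j → f x ∈ s.R c j ∨
      ∃ y ∈ (s.mkHandle c hB hR hD hP).core j, ‖f x - y‖ ≤ η y) :
    ∀ x ∈ Ω, ‖h x - f x‖ ≤ 49 * ρ (h x) := by
  intro x hx
  have hΛ := hm hx
  have hρ0 := hρ.pos _ hΛ
  have hΛ' := hΛ
  rw [← hB.cover] at hΛ'
  obtain ⟨j, hj⟩ := mem_iUnion.1 hΛ'
  rcases hcell x hx j hj with h1 | ⟨y, hy, hxy⟩
  · have h2 := near_core hS hc hB hR hD hP hj (Or.inl h1)
    rw [norm_sub_rev]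
    linarith
  · have h2 := near_core hS hc hB hR hD hP hj (Or.inr hy)
    have hyΛ : y ∈ Λ := by
      rcases hy with hy | hy
      · rw [← hB.cover]
        exact mem_iUnion.2 ⟨j, (hR j).isClosed.frontier_subset hy⟩
      · obtain ⟨d, -, hyd⟩ := mem_iUnion₂.1 hy
        exact (s.mkHandle c hB hR hD hP).Q_sub d hyd
    have h3 := hη y hyΛ
    have h4 := hρ.lip y (h x)
    rw [norm_sub_rev]
    calc ‖f x - h x‖ = ‖(f x - y) + (y - h x)‖ := by congr 1; abel
      _ ≤ ‖f x - y‖ + ‖y - h x‖ := norm_add_le _ _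
      _ ≤ 49 * ρ (h x) := by linarith

end

/-- **(NearT) for the map of (MAIN)** -/
theorem nearT_of_main (hρ : SizeFn Λ ρ)
    (hK : ∀ p, ∃ m z, IsTile ρ v m z ∧ Icc (K.lo p) (K.hi p) = dyc v m z)
    (hc : c ∈ Ioo (1/2:ℝ) 1) (hB : s.BasicFacts c)
    (hR : s.BallFacts c) (hD : s.DiscFacts c) (hP : s.PieceFacts c) {Ω : Set V} {f h : V → V}
    {η : V → ℝ} (hη : ∀ y ∈ Λ, η y ≤ ρ y) (hm : MapsTo h Ω Λ)
    (hcell : ∀ x ∈ Ω, ∀ j, h x ∈ s.R c j → f x ∈ s.R c j ∨
      ∃ y ∈ (s.mkHandle c hB hR hD hP).core j, ‖f x - y‖ ≤ η y) :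
    Net.NearT 196 Ω f h ρ v := by
  obtain ⟨sd, hS⟩ := exists_sideFn hρ hK
  have h1 := near_of_main hS hρ hc hB hR hD hP hη hm hcell
  obtain ⟨_, _, _, h4, _⟩ := Net.specNC Λ ρ hρ v
  have := Net.NearT.of_rho (C := 49) (by norm_num) h1
    (fun m z hmz x hx => (h4 m z hmz x hx).2)
  norm_num at this
  exact this

end P073.NT293
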